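import Mathlib

/-!
# P232: integer checker for the numeric certificates
-/

namespace P232.Chk

/-- scale -/
def SC : ℕ := 1000000
/-- lower bound of `π` (times `SC`) -/
def PIm : ℕ := 3141592
/-- upper bound of `π` (times `SC`) -/
def PIp : ℕ := 3141593

/-- lower bounds for `mk (j/40)` (scaled), `j = 0 .. 40`, packed in base `2^20` -/
def MTab : ℕ := 5237050297782520720325741028391007223316696133289434917186429897914446634272076500716108258217098195389364307453962124571138171206772372405837022938230992243054548565550898383805178881920081188604274268899024550438869807734279074736680924811838016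

/-- lower bound for `mk (j/40)` -/
def MT (j : ℕ) : ℕ := (MTab / 2 ^ (20 * j)) % 2 ^ 20

/-- nodes: position, value of kappa, trapezoid weight, slope index, choice of `L` test -/
structure Nd where
  x : ℕ
  k : ℕ
  w : ℕ
  j : ℕ
  c : ℕ

/-- a segment of the `V` test -/
structure Sg where
  v : ℕ
  ty : ℕ
  r : ℕ
  t : ℕ

/-- leaf data -/
structure Leaf where
  lam : ℤ
  H : ℤ
  mu : ℕ
  B : ℤ
  vs : List Sg
  ns : List Nd

/-- boxes in the variables `(η, a1, a0)` -/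
structure Box where
  e1 : ℕ
  e2 : ℕ
  a1m : ℕ
  a1p : ℕ
  a0m : ℕ
  a0p : ℕ

/-- `0 ≤ z` -/
def nn (z : ℤ) : Bool := match z with
  | .ofNat _ => true
  | .negSucc _ => false

/-- clipped affine function, scale `SC²` -/
def lv (lam H : ℤ) (x : ℕ) : ℕ := (lam * (x : ℤ) + H * (SC : ℤ)).toNat

/-- test for `κ √(π y) ≥ l` -/
def t3 (k0 k1 y0 y1 l0 l1 : ℕ) : Bool :=
  Nat.ble (l0 * l0) (PIm * (k0 * k0 * y0)) &&
  Nat.ble (l0 * l0 + 2 * l0 * l1) (PIm * (k0 * k0 * y1 + 2 * k0 * k1 * y0)) &&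
  Nat.ble (2 * l0 * l1 + l1 * l1) (PIm * (2 * k0 * k1 * y1 + k1 * k1 * y0)) &&
  Nat.ble (l1 * l1) (PIm * (k1 * k1 * y1))

/-- test for `κ s ≥ l` -/
def t2 (k0 k1 s0 s1 l0 l1 : ℕ) : Bool :=
  Nat.ble (l0 * SC) (k0 * s0) && Nat.ble ((l0 + l1) * SC) (k0 * s1 + k1 * s0) &&
  Nat.ble (l1 * SC) (k1 * s1)

/-- test for `S` type slices with end height at most `w` -/
def tS (w j : ℕ) (k0 k1 x0 x1 l0 l1 : ℕ) : Bool :=
  Nat.ble j 40 && Nat.ble (25000 * j * w) (MT j * SC + 25000 * j * x0) &&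
  t2 k0 k1 (MT j * SC + 25000 * j * x0 - 25000 * j * w) (MT j * SC + 25000 * j * x1 - 25000 * j * w)
    l0 l1

/-- `L` test with extent `v`: `κ (π v / 4 + (1 - x)/v) ≥ l` -/
def tL (v : ℕ) (k0 k1 x0 x1 l0 l1 : ℕ) : Bool :=
  Nat.ble (PIp * (v * v)) (4 * (SC * SC) * (SC - x1)) &&
  t2 k0 k1 (PIm * v / 4 + (SC - x0) * (SC * SC / v)) (PIm * v / 4 + (SC - x1) * (SC * SC / v)) l0 l1

/-- constant test `κ c ≥ l` -/
def tC (c : ℕ) (k0 k1 l0 l1 : ℕ) : Bool := Nat.ble l0 (k0 * c) && Nat.ble l1 (k1 * c)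

/-- all tests for one piece -/
def piece (fam : ℕ) (em ep : ℕ) (lam H : ℤ) (mu : ℕ) (a b : Nd) : Bool :=
  (Nat.blt a.x b.x || (Nat.ble a.x b.x && Nat.beq a.k b.k)) && Nat.ble b.x SC &&
  Nat.ble (a.k * a.k + a.w * a.w) (SC * SC) &&
  Nat.ble (b.k * b.k + b.w * b.w) (SC * SC) &&
  match fam with
  | 0 =>
    let l0 := lv lam H a.x
    let l1 := lv lam H b.x
    t3 a.k b.k a.x b.x l0 l1 && t3 a.k b.k (SC - a.x) (SC - b.x) l0 l1 && tC SC a.k b.k l0 l1
  | 1 =>
    let l0 := lv lam H a.x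
    let l1 := lv lam H b.x
    t3 a.k b.k a.x b.x l0 l1 && tS 100000 a.j a.k b.k a.x b.x l0 l1 &&
    tC 1272792 a.k b.k l0 l1 &&
    (let m0 := lv lam (H - mu) a.x
     let m1 := lv lam (H - mu) b.x
     match a.c with
     | 0 => t3 a.k b.k (SC - a.x) (SC - b.x) m0 m1
     | _ => tC 900000 a.k b.k m0 m1)
  | _ =>
    let l0 := lv lam H a.x
    let l1 := lv lam H b.x
    t3 a.k b.k a.x b.x l0 l1 && tS ep a.j a.k b.k a.x b.x l0 l1 &&
    (let m0 := lv lam (H + mu) a.x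
     let m1 := lv lam (H + mu) b.x
     match a.c with
     | 0 => t3 a.k b.k (SC - a.x) (SC - b.x) m0 m1
     | _ => tL (SC - em) a.k b.k a.x b.x m0 m1)

/-- all pieces -/
def pieces (fam em ep : ℕ) (lam H : ℤ) (mu : ℕ) : Nd → List Nd → Bool
  | _, [] => true
  | a, b :: l => piece fam em ep lam H mu a b && pieces fam em ep lam H mu b l

/-- trapezoid sum over the pieces inside `[lo, hi]` -/
def tsum (lo hi : ℕ) : Nd → List Nd → ℕ
  | _, [] => 0
  | a, b :: l => (bif Nat.ble lo a.x && Nat.ble b.x hi then (b.x - a.x) * (a.w + b.w) else 0) +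
      tsum lo hi b l

/-- last node -/
def lastx : Nd → List Nd → ℕ
  | a, [] => a.x
  | _, b :: l => lastx b l

/-- one `V` segment -/
def vseg (lam B : ℤ) (v0 v1 ty r T : ℕ) : Bool :=
  match ty with
  | 0 => nn (lam * v0 + B * SC - SC * SC) && nn (lam * v1 + B * SC - SC * SC)
  | 1 => Nat.ble (PIp * SC) (4 * T * r) && nn ((lam - r) * v0 + (B - T) * SC) &&
      nn ((lam - r) * v1 + (B - T) * SC)
  | _ => Nat.ble (2 * PIp * (SC * SC)) (3 * T * (r * r)) && nn ((lam - r) * v0 + (B - T) * SC) &&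
      nn ((lam - r) * v1 + (B - T) * SC)

/-- the `V` test from `v0` to `vend` -/
def vchk (lam B : ℤ) (vend : ℕ) : ℕ → List Sg → Bool
  | v0, [] => Nat.ble vend v0
  | v0, s :: l => vseg lam B v0 s.v s.ty s.r s.t && vchk lam B vend s.v l

/-- sign of the `μ` term -/
def sg (fam : ℕ) : ℤ := match fam with
  | 0 => 0
  | 1 => -1
  | _ => 1

/-- lower end of the range of `a0` -/
def lowA (fam : ℕ) (b : Box) : ℕ := match fam with
  | 0 => b.a0m
  | 1 => b.a0m
  | _ => max b.a0m b.e1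

/-- leaf test -/
def leafOK (fam : ℕ) (b : Box) (L : Leaf) : Bool :=
  match L.ns with
  | a :: c :: l =>
    Nat.ble a.x b.a1m && Nat.ble b.a0p (lastx a (c :: l)) &&
    pieces fam b.e1 (min b.e2 b.a0p) L.lam L.H L.mu a (c :: l) &&
    nn (20 * SC * L.H + sg fam * (2 * SC * L.mu) +
      10 * (tsum b.a1p (lowA fam b) a (c :: l) : ℕ) - 20 * SC * L.B) &&
    vchk L.lam L.B (min b.a0p 500000) b.a1m L.vs && !L.vs.isEmpty
  | _ => false

/-- base `2^25` digits -/
def digs : ℕ → ℕ → List ℕ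
  | 0, _ => []
  | f + 1, n => (n % 2 ^ 25) :: digs f (n / 2 ^ 25)

/-- parse segments -/
def pV : ℕ → List ℕ → List Sg × List ℕ
  | 0, l => ([], l)
  | n + 1, v :: ty :: r :: t :: l =>
    match pV n l with
    | (a, b) => (⟨v, ty, r, t⟩ :: a, b)
  | _, l => ([], l)

/-- parse nodes -/
def pN : List ℕ → List Nd
  | x :: k :: w :: jc :: l => ⟨x, k, w, jc / 2, jc % 2⟩ :: pN l
  | _ => []

/-- decode a leaf -/
def parse (n : ℕ) : Leaf :=
  match digs (n % 2 ^ 25) (n / 2 ^ 25) with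
  | lam :: H :: mu :: B :: nv :: l =>
    match pV nv l with
    | (vs, r) => ⟨(lam : ℤ) - 2 ^ 24, (H : ℤ) - 2 ^ 24, mu, (B : ℤ) - 2 ^ 24, vs, pN r⟩
  | _ => ⟨0, 0, 0, 0, [], []⟩

/-- certificate trees -/
inductive Tree where
  | leaf (n : ℕ)
  | split (d x : ℕ) (l r : Tree)
  | nil
  | corner

/-- the tree check -/
def check (fam : ℕ) : Tree → Box → Bool
  | .leaf n, b => leafOK fam b (parse n)
  | .split d x l r, b =>
    match d with
    | 0 => check fam l { b with e2 := x } && check fam r { b with e1 := x }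
    | 1 => check fam l { b with a1p := x } && check fam r { b with a1m := x }
    | _ => check fam l { b with a0p := x } && check fam r { b with a0m := x }
  | .nil, b => Nat.blt b.a0p b.a1m || (Nat.ble 2 fam && Nat.blt b.a0p b.e1)
  | .corner, b => Nat.ble b.a1p 1000 && Nat.ble 999000 b.a0m && Nat.ble fam 0

end P232.Chk
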