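import Vale.Agent.P232.Corner

/-!
# P232, [COS]: the corner lemma, strict version
-/

open MeasureTheory Set Filter Topology
open scoped ENNReal ContDiff

namespace P232

namespace Corner

theorem numeric_strict {m w X P : ℝ} (hm1 : m ≤ 1 / 1000) (hw : 0 < w) (hwm : w ^ 6 = m)
    (hX : 316 / 1000 ≤ X)
    (hP : w ^ 3 * X + (1 - 2 * m - m * (4 / 3 - 1 / 3 * Real.log m)) ≤ P) : 1 < P := by
  have hw2 : w ^ 2 ≤ 1 / 10 := by
    by_contra hcon
    push Not at hcon
    have : (1 / 10 : ℝ) ^ 3 < (w ^ 2) ^ 3 := by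
      exact pow_lt_pow_left₀ hcon (by norm_num) (by norm_num)
    have h2 : (w ^ 2) ^ 3 = w ^ 6 := by ring
    rw [h2, hwm] at this
    norm_num at this
    linarith
  have hw1 : w ≤ 1 / 3 := by nlinarith
  have hlog : - Real.log m ≤ 6 * (w⁻¹ - 1) := by
    rw [← hwm, Real.log_pow]
    have := Real.log_le_sub_one_of_pos (inv_pos.2 hw)
    rw [Real.log_inv] at this
    push_cast
    linarith
  have hmul : m * (- Real.log m) ≤ m * (6 * (w⁻¹ - 1)) :=
    mul_le_mul_of_nonneg_left hlog (by rw [← hwm]; positivity)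
  have hmw : m * w⁻¹ = w ^ 5 := by
    rw [← hwm]; field_simp
  have h1 : m * (- Real.log m) ≤ 6 * w ^ 5 - 6 * w ^ 6 := by
    have : m * (6 * (w⁻¹ - 1)) = 6 * w ^ 5 - 6 * w ^ 6 := by
      rw [mul_sub, mul_sub, ← hmw, hwm]; ring
    linarith
  have h2 : w ^ 3 * (316 / 1000) ≤ w ^ 3 * X := mul_le_mul_of_nonneg_left hX (by positivity)
  have h3 : 0 < w ^ 3 * (316 / 1000 - 4 / 3 * w ^ 3 - 2 * w ^ 2) := by
    refine mul_pos (by positivity) ?_
    nlinarith [sq_nonneg w]
  rw [← hwm] at hP h1
  nlinarith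

end Corner

open Corner in
theorem corner_strict (a q : ℝ → ℝ) (P V a0 a1 : ℝ) (h : Prof a q P V a0 a1) (hV0 : 0 < V)
    (hV : V ≤ 1 / 2) (ha0 : 999 / 1000 ≤ a0) (ha1 : a1 ≤ 1 / 1000) (hne : a0 < 1 ∨ 0 < a1)
    (hq : ∀ᵐ s ∂(volume.restrict (Ioo (0 : ℝ) 1)), q0 (a s) ≤ q s) : JQ V < P := by
  -- the trivial calibration
  have hP0 : a0 - a1 ≤ P := by
    have := lev_lin h hq (fun _ => 0) continuous_const (fun x => by simp) 0 0
      (fun x _ => by simp) (a0 - a1) (by simp)
    simpa using this
  rcases lt_or_ge V (317 / 1000) with hV1 | hV1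
  · refine ((min_le_left _ _).trans (min_le_right _ _)).trans_lt ?_
    refine lt_of_lt_of_le ?_ hP0
    have h998 : (998 / 1000 : ℝ) ≤ a0 - a1 := by linarith
    refine lt_of_lt_of_le ?_ h998
    rw [Real.sqrt_lt' (by norm_num)]
    have := Real.pi_lt_d4
    nlinarith
  have hJ : JQ V ≤ 1 := min_le_right _ _
  refine hJ.trans_lt ?_
  have ha01 := h.a0_le
  have ha10 := h.a1_nonneg
  rcases le_total a1 (1 - a0) with hcase | hcase
  · -- case A
    rcases (by linarith : (0 : ℝ) ≤ 1 - a0).eq_or_lt with hd | hd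
    · exfalso
      have h1 : a0 = 1 := by linarith
      have h2 : a1 = 0 := by linarith
      rcases hne with hne | hne <;> linarith
    set m := 1 - a0 with hm
    have hm1 : m ≤ 1 / 1000 := by linarith
    set w := m ^ (1 / 6 : ℝ) with hw
    have hw0 : 0 < w := Real.rpow_pos_of_pos hd _
    have hwm : w ^ 6 = m := by
      rw [hw, ← Real.rpow_natCast, ← Real.rpow_mul hd.le]
      norm_num
    have ht : 0 < w ^ 3 := by positivity
    have ht2 : (w ^ 3) ^ 2 = m := by rw [← hwm]; ring
    have hI : (1 - a1 - m) - m * (4 / 3 - 1 / 3 * Real.log m) ≤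
        ∫ x in a1..a0, √(1 - K m (w ^ 3) x ^ 2) := by
      refine (int_G hd (by linarith : m ≤ 1 - a1) (by linarith)).trans ?_
      have e : ∫ x in m..(1 - a1), G m x = ∫ x in a1..a0, G m (1 - x) := by
        rw [intervalIntegral.integral_comp_sub_left]
      rw [e]
      refine intervalIntegral.integral_mono_on (by linarith) ?_ ?_ ?_
      · have := (G_int hd (by linarith : m ≤ 1 - a1)).comp_sub_left 1
        have e1 : 1 - (1 - a1) = a1 := by ring
        have e2 : 1 - m = a0 := by rw [hm]; ring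
        rw [e1, e2] at this
        exact this.symm
      · exact (by
          have := continuous_K hd hm1 ht ht2
          fun_prop : Continuous fun x => √(1 - K m (w ^ 3) x ^ 2)).intervalIntegrable _ _
      · intro x hx
        refine le_sqrt_one_sub (K_mem hd hm1 ht ht2 x) ?_
        have := K_sq hd hm1 ht ht2 (by rw [hm]; linarith [hx.2] : x ≤ 1 - m)
        unfold G
        linarith
    have hlin := lev_lin h hq (K m (w ^ 3)) (continuous_K hd hm1 ht ht2)
      (K_mem hd hm1 ht ht2) (w ^ 3 / (1 - 2 * m)) (-(w ^ 3 * m / (1 - 2 * m))) (by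
        intro x hx
        refine le_trans (le_of_eq ?_)
          (K_q0 hd hm1 ht ht2 (by rw [hm]; linarith [hx.2] : x ≤ 1 - m))
        have : 1 - 2 * m ≠ 0 := by linarith
        field_simp
        ring) _ hI
    refine numeric_strict (X := (V - m) / (1 - 2 * m)) hm1 hw0 hwm ?_ ?_
    · rw [le_div_iff₀ (by linarith)]
      nlinarith
    · refine le_trans ?_ hlin
      have e : w ^ 3 * ((V - m) / (1 - 2 * m)) =
          w ^ 3 / (1 - 2 * m) * V + -(w ^ 3 * m / (1 - 2 * m)) := by
        have : 1 - 2 * m ≠ 0 := by linarith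
        field_simp
        ring
      rw [e]
      linarith
  · -- case B
    rcases ha10.eq_or_lt with hd | hd
    · exfalso
      have h1 : a0 = 1 := by linarith
      rcases hne with hne | hne <;> linarith
    set m := a1 with hm
    have hm1 : m ≤ 1 / 1000 := ha1
    set w := m ^ (1 / 6 : ℝ) with hw
    have hw0 : 0 < w := Real.rpow_pos_of_pos hd _
    have hwm : w ^ 6 = m := by
      rw [hw, ← Real.rpow_natCast, ← Real.rpow_mul hd.le]
      norm_num
    have ht : 0 < w ^ 3 := by positivity
    have ht2 : (w ^ 3) ^ 2 = m := by rw [← hwm]; ring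
    have hc : Continuous fun x => K m (w ^ 3) (1 - x) :=
      (continuous_K hd hm1 ht ht2).comp (continuous_const.sub continuous_id)
    have hI : (a0 - m) - m * (4 / 3 - 1 / 3 * Real.log m) ≤
        ∫ x in m..a0, √(1 - K m (w ^ 3) (1 - x) ^ 2) := by
      refine (int_G hd (by linarith : m ≤ a0) ha01).trans ?_
      refine intervalIntegral.integral_mono_on (by linarith) ?_ ?_ ?_
      · exact G_int hd (by linarith : m ≤ a0)
      · exact (by fun_prop :
          Continuous fun x => √(1 - K m (w ^ 3) (1 - x) ^ 2)).intervalIntegrable _ _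
      · intro x hx
        refine le_sqrt_one_sub (K_mem hd hm1 ht ht2 _) ?_
        have := K_sq hd hm1 ht ht2 (by linarith [hx.1] : 1 - x ≤ 1 - m)
        rw [sub_sub_cancel] at this
        unfold G
        linarith
    have hlin := lev_lin h hq (fun x => K m (w ^ 3) (1 - x)) hc
      (fun x => K_mem hd hm1 ht ht2 (1 - x)) (-(w ^ 3 / (1 - 2 * m)))
      (w ^ 3 * (1 - m) / (1 - 2 * m)) (by
        intro x hx
        have := K_q0 hd hm1 ht ht2 (by linarith [hx.1] : 1 - x ≤ 1 - m)
        rw [q0_symm] at this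
        refine le_trans (le_of_eq ?_) this
        have : 1 - 2 * m ≠ 0 := by linarith
        field_simp
        ring) _ hI
    refine numeric_strict (X := (1 - m - V) / (1 - 2 * m)) hm1 hw0 hwm ?_ ?_
    · rw [le_div_iff₀ (by linarith)]
      nlinarith
    · refine le_trans ?_ hlin
      have e : w ^ 3 * ((1 - m - V) / (1 - 2 * m)) =
          -(w ^ 3 / (1 - 2 * m)) * V + w ^ 3 * (1 - m) / (1 - 2 * m) := by
        have : 1 - 2 * m ≠ 0 := by linarith
        field_simp
        ring
      rw [e]
      linarith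

end P232
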