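import Vale.Agent.P232.Defs

/-!
# P232 blueprint (statements only; do not import). Prove each block verbatim in its own file
`Vale/Agent/P232/<File>.lean`, namespace `P232`, auxiliary lemmas in a sub-namespace.
-/

open MeasureTheory Set Filter Topology
open scoped ENNReal ContDiff

namespace P232

/-! ## Part II: from periodic sets to lower sets of the cube -/

/-- [MOL] Mollify.lean -/
theorem mollify (E : Set R3) (hm : MeasurableSet E) (hp : PeriodicSet E) (hfin : perimeter E ≠ ⊤)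
    (ε : ℝ) (hε : 0 < ε) :
    ∃ f : R3 → ℝ, ContDiff ℝ ∞ f ∧ PeriodicFun f ∧ (∀ x, f x ∈ Icc (0 : ℝ) 1) ∧
      ∫ x in cell, gradN f x ≤ (perimeter E).toReal ∧
      ∫ x in cell, |f x - E.indicator 1 x| ≤ ε := by
  sorry

/-- [EUP] EnUp.lean -/
theorem en_le (f : R3 → ℝ) (hf : ContDiff ℝ 1 f) (h : Tor → ℝ) (hh : ∀ x, h (pr x) = f x)
    (δ : ℝ) (h0 : 0 < δ) (h1 : δ < 1 / 2) : en δ h ≤ Mc δ * ∫ x in cell, gradN f x := by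
  sorry

/-- [ELOW] EnLow.lean -/
theorem grad_le (F : R3 → ℝ) (hF : ContDiff ℝ 1 F) (h : Tor → ℝ) (hh : ∀ x, h (pr x) = F x)
    (P : ℝ) (hP : ∀ δ, 0 < δ → δ < 1 / 2 → en δ h ≤ Mc δ * P) :
    ∫ x in cell, gradN F x ≤ P := by
  sorry

/-- [SMO] Smooth.lean -/
theorem smooth_approx (g : Tor → ℝ) (hg : Continuous g) (h01 : ∀ x, g x ∈ Icc (0 : ℝ) 1)
    (hs : ∀ x y : Tor, (∀ i, ‖x i‖ = ‖y i‖) → g x = g y) (ε : ℝ) (hε : 0 < ε) :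
    ∃ F : R3 → ℝ, ContDiff ℝ ∞ F ∧ PeriodicFun F ∧ (∀ x, F x ∈ Icc (0 : ℝ) 1) ∧
      (∀ x, |F x - g (pr x)| ≤ ε) ∧ (∀ x i, F (Function.update x i (-x i)) = F x) ∧
      ∀ h' : Tor → ℝ, (∀ x, h' (pr x) = F x) → ∀ δ, en δ h' ≤ en δ g := by
  sorry

/-- [SYM] Symm.lean : polarisation + compactness -/
theorem symm_exists (f : Tor → ℝ) (K : NNReal) (hf : LipschitzWith K f)
    (h01 : ∀ x, f x ∈ Icc (0 : ℝ) 1) :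
    ∃ g : Tor → ℝ, LipschitzWith K g ∧ (∀ x, g x ∈ Icc (0 : ℝ) 1) ∧
      (∀ x y : Tor, (∀ i, ‖x i‖ ≤ ‖y i‖) → g y ≤ g x) ∧
      (∀ φ : ℝ → ℝ, Continuous φ → ∫ x, φ (g x) = ∫ x, φ (f x)) ∧
      ∀ δ, en δ g ≤ en δ f := by
  sorry

/-- [HEL] Helly.lean -/
theorem helly (g : ℕ → ℝ × ℝ × ℝ → ℝ) (hc : ∀ n, Continuous (g n))
    (hanti : ∀ n, AntitoneOn (g n) Q3) (h01 : ∀ n p, g n p ∈ Icc (0 : ℝ) 1)
    (hint : Tendsto (fun n => ∫ p in Q3, g n p * (1 - g n p)) atTop (𝓝 0)) (V : ℝ)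
    (hV : Tendsto (fun n => ∫ p in Q3, g n p) atTop (𝓝 V)) :
    ∃ φ : ℕ → ℕ, StrictMono φ ∧ ∃ D : Set (ℝ × ℝ × ℝ), IsOpen D ∧ Low3 D ∧
      volume D = ENNReal.ofReal V ∧
      ∀ᵐ p ∂(volume.restrict Q3), Tendsto (fun n => g (φ n) p) atTop (𝓝 (D.indicator 1 p)) := by
  sorry

/-- [AS2] Symmetrize.lean (assembly of Part II from the six statements above) -/
theorem symmetrize (E : Set R3) (hm : MeasurableSet E) (hp : PeriodicSet E)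
    (hfin : perimeter E ≠ ⊤) :
    ∃ D : Set (ℝ × ℝ × ℝ), IsOpen D ∧ Low3 D ∧ volume D = volume (E ∩ cell) ∧
      Approx3 D ((perimeter E).toReal / 2) := by
  sorry

/-! ## Part III: slicing -/

/-- [SL] Slicing.lean -/
theorem slice3 (D : Set (ℝ × ℝ × ℝ)) (hDm : MeasurableSet D) (hD : D ⊆ Q3) (P : ℝ) (hP : 0 ≤ P)
    (hA : Approx3 D P) :
    ∃ q : ℝ → ℝ, (∀ s, 0 ≤ q s) ∧ Measurable q ∧ IntegrableOn q (Ioo 0 1) ∧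
      (∀ᵐ s ∂(volume.restrict (Ioo (0 : ℝ) 1)), ∀ c, LB2 (slice D s) c → c ≤ q s) ∧
      PartIneq (fun s => (volume (slice D s)).toReal) q P := by
  sorry

theorem slice2 (S : Set (ℝ × ℝ)) (hSm : MeasurableSet S) (hS : Low2 S) (c : ℝ)
    (h : ∀ P, 0 ≤ P → PartIneq (hgt S) (q1 (hgt S)) P → c ≤ P) : LB2 S c := by
  sorry

/-- [LEV] Level.lean -/
theorem level (a q : ℝ → ℝ) (P : ℝ) (ha : AntitoneOn a (Ioo 0 1))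
    (hq : ∀ s, 0 ≤ q s) (hqm : Measurable q) (hqi : IntegrableOn q (Ioo 0 1))
    (hP : PartIneq a q P) (a0 a1 : ℝ) (h0 : Tendsto a (𝓝[>] 0) (𝓝 a0))
    (h1 : Tendsto a (𝓝[<] 1) (𝓝 a1)) (κ : ℝ → ℝ) (hκ : Continuous κ)
    (hκ01 : ∀ x, κ x ∈ Icc (0 : ℝ) 1) :
    (∫ s in (0 : ℝ)..1, κ (a s) * q s) + (∫ x in a1..a0, √(1 - κ x ^ 2)) ≤ P := by
  sorry

/-- [CAL] Calib.lean -/
theorem kcal (h : ℝ → ℝ) (hanti : AntitoneOn h (Ioo 0 1)) (h01 : ∀ x ∈ Ioo (0 : ℝ) 1, 0 < h x ∧ h x < 1)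
    (w : ℝ) (hlim : Tendsto h (𝓝[<] 1) (𝓝 w)) (k : ℝ) (hk : k ∈ Icc (0 : ℝ) 1) (P : ℝ)
    (hP : PartIneq h (q1 h) P) : mk k + k * ((∫ x in (0 : ℝ)..1, h x) - w) ≤ P := by
  sorry

theorem kcalY (h : ℝ → ℝ) (hanti : AntitoneOn h (Ioo 0 1)) (Y : ℝ) (hY : 0 < Y) (hY1 : Y < 1)
    (h01 : ∀ x ∈ Ioo (0 : ℝ) Y, 0 < h x ∧ h x < 1) (h0 : ∀ x ∈ Ioo Y 1, h x = 0) (P : ℝ)
    (hP : PartIneq h (q1 h) P) : Real.pi * Y / 4 + (∫ x in (0 : ℝ)..1, h x) / Y ≤ P := by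
  sorry

theorem constcal (h : ℝ → ℝ) (hanti : AntitoneOn h (Ioo 0 1))
    (h01 : ∀ x ∈ Ioo (0 : ℝ) 1, 0 ≤ h x ∧ h x ≤ 1) (Y1 Y0 : ℝ) (hY1 : 0 ≤ Y1) (hY : Y1 ≤ Y0)
    (hY0 : Y0 ≤ 1) (hY01 : ∀ x ∈ Ioo Y1 Y0, 0 < h x ∧ h x < 1) (u0 u1 : ℝ)
    (hu0 : Tendsto h (𝓝[>] 0) (𝓝 u0)) (hu1 : Tendsto h (𝓝[<] 1) (𝓝 u1)) (c d : ℝ) (hc : 0 ≤ c)
    (hd : 0 ≤ d) (hcd : c ^ 2 + d ^ 2 ≤ 1) (P : ℝ) (hP : PartIneq h (q1 h) P) :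
    c * (Y0 - Y1) + d * (u0 - u1) ≤ P := by
  sorry

/-- [WT] WTrick.lean -/
theorem wtrick (h : ℝ → ℝ) (hanti : AntitoneOn h (Ioo 0 1))
    (h01 : ∀ x ∈ Ioo (0 : ℝ) 1, 0 ≤ h x ∧ h x < 1) (hlim : Tendsto h (𝓝[<] 1) (𝓝 0)) (P : ℝ)
    (hP : PartIneq h (q1 h) P) : √(Real.pi * ∫ x in (0 : ℝ)..1, h x) ≤ P := by
  sorry

/-- [LB] Planar.lean : planar bounds (from slice2 and the calibrations) -/
theorem lb_swap (S : Set (ℝ × ℝ)) (c : ℝ) (h : LB2 (Prod.swap ⁻¹' S) c) : LB2 S c := by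
  sorry

theorem lbQ (S : Set (ℝ × ℝ)) (ho : IsOpen S) (hS : Low2 S) (hx : ¬ ConX S) (hy : ¬ ConY S) :
    LB2 S (√(Real.pi * (volume S).toReal)) := by
  sorry

theorem lbSX (S : Set (ℝ × ℝ)) (ho : IsOpen S) (hS : Low2 S) (hx : ConX S) (hy : ¬ ConY S)
    (w : ℝ) (hw : EndX S w) (k : ℝ) (hk : k ∈ Icc (0 : ℝ) 1) :
    LB2 S (mk k + k * ((volume S).toReal - w)) := by
  sorry

theorem lbSY (S : Set (ℝ × ℝ)) (ho : IsOpen S) (hS : Low2 S) (hx : ¬ ConX S) (hy : ConY S)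
    (w : ℝ) (hw : EndY S w) (k : ℝ) (hk : k ∈ Icc (0 : ℝ) 1) :
    LB2 S (mk k + k * ((volume S).toReal - w)) := by
  sorry

theorem lbL0 (S : Set (ℝ × ℝ)) (ho : IsOpen S) (hS : Low2 S) (hx : ConX S) (hy : ConY S) :
    LB2 S (√(Real.pi * (1 - (volume S).toReal))) := by
  sorry

theorem lbL1X (S : Set (ℝ × ℝ)) (ho : IsOpen S) (hS : Low2 S) (hx : ConX S) (hy : ConY S)
    (hnf : ∃ z ∈ Q2, z ∉ S) (η : ℝ)
    (hη : ∀ y ∈ Ioo (0 : ℝ) 1, y < η → ∀ x ∈ Ioo (0 : ℝ) 1, (x, y) ∈ S) :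
    ∃ v, 0 < v ∧ v ≤ 1 - η ∧ LB2 S (Real.pi * v / 4 + (1 - (volume S).toReal) / v) := by
  sorry

theorem lbL1Y (S : Set (ℝ × ℝ)) (ho : IsOpen S) (hS : Low2 S) (hx : ConX S) (hy : ConY S)
    (hnf : ∃ z ∈ Q2, z ∉ S) (η : ℝ)
    (hη : ∀ x ∈ Ioo (0 : ℝ) 1, x < η → ∀ y ∈ Ioo (0 : ℝ) 1, (x, y) ∈ S) :
    ∃ v, 0 < v ∧ v ≤ 1 - η ∧ LB2 S (Real.pi * v / 4 + (1 - (volume S).toReal) / v) := by
  sorry

theorem lbL2 (S : Set (ℝ × ℝ)) (ho : IsOpen S) (hS : Low2 S) (hx : ConX S) (hy : ConY S)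
    (τ : ℝ) (hτ : τ < 1) (h1 : EndX S τ) (h2 : EndY S τ) : LB2 S (√2 * (1 - τ)) := by
  sorry

theorem lbL3X (S : Set (ℝ × ℝ)) (ho : IsOpen S) (hS : Low2 S) (hx : ConX S) (hy : ConY S)
    (τ : ℝ) (hτ : τ < 1) (h1 : EndX S τ) : LB2 S (1 - τ) := by
  sorry

theorem lbL3Y (S : Set (ℝ × ℝ)) (ho : IsOpen S) (hS : Low2 S) (hx : ConX S) (hy : ConY S)
    (τ : ℝ) (hτ : τ < 1) (h1 : EndY S τ) : LB2 S (1 - τ) := by
  sorry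

/-- [PROF] ProfOf.lean : slice3 + level for one direction; invariances -/
theorem approx_rot (D : Set (ℝ × ℝ × ℝ)) (P : ℝ) (h : Approx3 D P) : Approx3 (rot D) P := by
  sorry

theorem approx_swp (D : Set (ℝ × ℝ × ℝ)) (P : ℝ) (h : Approx3 D P) : Approx3 (swp D) P := by
  sorry

theorem vol_rot (D : Set (ℝ × ℝ × ℝ)) (h : MeasurableSet D) : volume (rot D) = volume D := by
  sorry

theorem vol_swp (D : Set (ℝ × ℝ × ℝ)) (h : MeasurableSet D) : volume (swp D) = volume D := by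
  sorry

theorem low_rot (D : Set (ℝ × ℝ × ℝ)) (h : Low3 D) : Low3 (rot D) := by
  sorry

theorem low_swp (D : Set (ℝ × ℝ × ℝ)) (h : Low3 D) : Low3 (swp D) := by
  sorry

theorem prof_of (D : Set (ℝ × ℝ × ℝ)) (ho : IsOpen D) (hD : Low3 D) (P : ℝ) (hP : 0 ≤ P)
    (hA : Approx3 D P) (V : ℝ) (hV0 : 0 ≤ V) (hV : volume D = ENNReal.ofReal V) :
    ∃ (a q : ℝ → ℝ) (a0 a1 : ℝ), Prof a q P V a0 a1 ∧
      (∀ s ∈ Ioo (0 : ℝ) 1, a s = (volume (slice D s)).toReal) ∧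
      (∀ t < a0, ∃ s ∈ Ioo (0 : ℝ) 1, t < a s) ∧
      (∀ᵐ s ∂(volume.restrict (Ioo (0 : ℝ) 1)), ∀ c, LB2 (slice D s) c → c ≤ q s) := by
  sorry

/-! ## Numeric lemmas -/

/-- [NG] NumGen.lean -/
theorem num_gen (a q : ℝ → ℝ) (P V a0 a1 : ℝ) (h : Prof a q P V a0 a1) (hV0 : 0 < V)
    (hV : V ≤ 1 / 2) (ha0 : 19 / 20 ≤ a0)
    (hq : ∀ᵐ s ∂(volume.restrict (Ioo (0 : ℝ) 1)), q0 (a s) ≤ q s) : JQ V ≤ P := by
  sorry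

/-- [N1] NumD1.lean -/
theorem num_D1 (a q : ℝ → ℝ) (P V a0 a1 : ℝ) (h : Prof a q P V a0 a1) (hV0 : 0 < V)
    (hV : V ≤ 1 / 2)
    (hq : ∀ᵐ s ∂(volume.restrict (Ioo (0 : ℝ) 1)), Hyp1 a q s) : JQ V ≤ P := by
  sorry

/-- [N3] NumD3.lean -/
theorem num_D3 (a q : ℝ → ℝ) (P V a0 a1 : ℝ) (h : Prof a q P V a0 a1) (hV0 : 0 < V)
    (hV : V ≤ 1 / 2) (ha0 : a0 ≤ 19 / 20) (η : ℝ) (hη0 : 0 ≤ η) (hη : η ≤ a0)
    (hq : ∀ᵐ s ∂(volume.restrict (Ioo (0 : ℝ) 1)), Hyp3 a q η s) : JQ V ≤ P := by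
  sorry

/-! ## Type analysis and the cube theorem -/

/-- [TYP] Types.lean (from planar bounds, prof_of, numeric lemmas) -/
theorem cube_bound (D : Set (ℝ × ℝ × ℝ)) (ho : IsOpen D) (hD : Low3 D) (V : ℝ) (hV0 : 0 < V)
    (hV1 : V ≤ 1 / 2) (hV : volume D = ENNReal.ofReal V) (P : ℝ) (hP : 0 ≤ P)
    (hA : Approx3 D P) : JQ V ≤ P := by
  sorry

/-! ## Upper bounds -/

/-- [UPC] UpCompl.lean -/
theorem perimeter_compl (E : Set R3) (hm : MeasurableSet E) : perimeter Eᶜ = perimeter E := by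
  sorry

/-- [UPS] UpSlab.lean -/
theorem slab_upper (v : ℝ) (h0 : 0 ≤ v) (h1 : v ≤ 1) :
    MeasurableSet {x : R3 | Int.fract (x 0) < v} ∧ PeriodicSet {x : R3 | Int.fract (x 0) < v} ∧
    volume ({x : R3 | Int.fract (x 0) < v} ∩ cell) = ENNReal.ofReal v ∧
    perimeter {x : R3 | Int.fract (x 0) < v} ≤ 2 := by
  sorry

/-- [UPT] UpTube.lean -/
theorem tube_upper (r : ℝ) (h0 : 0 < r) (h1 : r < 1 / 2) :
    MeasurableSet {x : R3 | (Int.fract (x 0) - 1 / 2) ^ 2 + (Int.fract (x 1) - 1 / 2) ^ 2 < r ^ 2} ∧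
    PeriodicSet {x : R3 | (Int.fract (x 0) - 1 / 2) ^ 2 + (Int.fract (x 1) - 1 / 2) ^ 2 < r ^ 2} ∧
    volume ({x : R3 | (Int.fract (x 0) - 1 / 2) ^ 2 + (Int.fract (x 1) - 1 / 2) ^ 2 < r ^ 2} ∩ cell)
      = ENNReal.ofReal (Real.pi * r ^ 2) ∧
    perimeter {x : R3 | (Int.fract (x 0) - 1 / 2) ^ 2 + (Int.fract (x 1) - 1 / 2) ^ 2 < r ^ 2}
      ≤ ENNReal.ofReal (2 * Real.pi * r) := by
  sorry

/-- [UPB] UpBall.lean -/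
theorem ball_upper (r : ℝ) (h0 : 0 < r) (h1 : r < 1 / 2) :
    MeasurableSet {x : R3 | ∑ i, (Int.fract (x i) - 1 / 2) ^ 2 < r ^ 2} ∧
    PeriodicSet {x : R3 | ∑ i, (Int.fract (x i) - 1 / 2) ^ 2 < r ^ 2} ∧
    volume ({x : R3 | ∑ i, (Int.fract (x i) - 1 / 2) ^ 2 < r ^ 2} ∩ cell)
      = ENNReal.ofReal (4 / 3 * Real.pi * r ^ 3) ∧
    perimeter {x : R3 | ∑ i, (Int.fract (x i) - 1 / 2) ^ 2 < r ^ 2}
      ≤ ENNReal.ofReal (4 * Real.pi * r ^ 2) := by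
  sorry

/-- [UPJ] UpJ.lean (assembly of the upper bound) -/
theorem upper_J (V : ℝ) (h0 : 0 < V) (h1 : V < 1) :
    ∃ E : Set R3, MeasurableSet E ∧ PeriodicSet E ∧ volume (E ∩ cell) = ENNReal.ofReal V ∧
      perimeter E ≤ ENNReal.ofReal (J V) := by
  sorry

/-! ## Final theorem -/

theorem final (V : ℝ) (h0 : 0 < V) (h1 : V < 1) :
    (∀ E : Set R3, MeasurableSet E → PeriodicSet E → volume (E ∩ cell) = ENNReal.ofReal V →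
      ENNReal.ofReal (J V) ≤ perimeter E) ∧
    ∃ E : Set R3, MeasurableSet E ∧ PeriodicSet E ∧ volume (E ∩ cell) = ENNReal.ofReal V ∧
      perimeter E = ENNReal.ofReal (J V) := by
  sorry

end P232
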