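import Vale.Agent.P232.Defs

/-!
# P232 numeric blueprint (statements only; do not import).
-/

open MeasureTheory Set Filter Topology
open scoped ENNReal ContDiff

namespace P232

/-- [NA] NumA.lean -/
theorem t3_sound (k0 k1 y0 y1 l0 l1 p : ℝ) (hk0 : 0 ≤ k0) (hk1 : 0 ≤ k1) (hy0 : 0 ≤ y0)
    (hy1 : 0 ≤ y1) (hl0 : 0 ≤ l0) (hl1 : 0 ≤ l1) (hp0 : 0 ≤ p) (hp : p ≤ Real.pi)
    (h1 : l0 ^ 2 ≤ p * (k0 ^ 2 * y0))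
    (h2 : l0 ^ 2 + 2 * l0 * l1 ≤ p * (k0 ^ 2 * y1 + 2 * k0 * k1 * y0))
    (h3 : 2 * l0 * l1 + l1 ^ 2 ≤ p * (2 * k0 * k1 * y1 + k1 ^ 2 * y0))
    (h4 : l1 ^ 2 ≤ p * (k1 ^ 2 * y1)) (t : ℝ) (ht : t ∈ Icc (0 : ℝ) 1) :
    (1 - t) * l0 + t * l1 ≤ ((1 - t) * k0 + t * k1) * √(Real.pi * ((1 - t) * y0 + t * y1)) := by
  sorry

theorem t2_sound (k0 k1 s0 s1 l0 l1 : ℝ) (h1 : l0 ≤ k0 * s0)
    (h2 : l0 + l1 ≤ k0 * s1 + k1 * s0) (h3 : l1 ≤ k1 * s1) (t : ℝ) (ht : t ∈ Icc (0 : ℝ) 1) :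
    (1 - t) * l0 + t * l1 ≤ ((1 - t) * k0 + t * k1) * ((1 - t) * s0 + t * s1) := by
  sorry

theorem JQ_le_one (V : ℝ) : JQ V ≤ 1 := by
  sorry

theorem JQ_le_tube (V ρ : ℝ) (hV : 0 ≤ V) (hρ : 0 < ρ) : JQ V ≤ ρ * V + Real.pi / (4 * ρ) := by
  sorry

theorem JQ_le_ball (V ρ : ℝ) (hV : 0 ≤ V) (hρ : 0 < ρ) :
    JQ V ≤ ρ * V + 2 * Real.pi / (3 * ρ ^ 2) := by
  sorry

/-- trapezoid bound for the concave integrand -/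
theorem trap (u v k0 k1 w0 w1 : ℝ) (huv : u ≤ v) (hk0 : 0 ≤ k0) (hk1 : 0 ≤ k1) (hw0 : 0 ≤ w0)
    (hw1 : 0 ≤ w1) (h0 : w0 ^ 2 + k0 ^ 2 ≤ 1) (h1 : w1 ^ 2 + k1 ^ 2 ≤ 1) (κ : ℝ → ℝ)
    (hκ : ∀ t ∈ Icc (0 : ℝ) 1, κ ((1 - t) * u + t * v) = (1 - t) * k0 + t * k1) :
    (v - u) * (w0 + w1) / 2 ≤ ∫ x in u..v, √(1 - κ x ^ 2) := by
  sorry

/-- lower bounds for `mk` by the trapezoid rule (nodes `(x_i, w_i)` with `w_i² + k² x_i² ≤ 1`) -/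
theorem mk_trap (k : ℝ) (hk : 0 ≤ k) (n : ℕ) (x w : ℕ → ℝ) (hx0 : x 0 = 0) (hxn : x n = 1)
    (hx : ∀ i < n, x i ≤ x (i + 1)) (hw : ∀ i ≤ n, 0 ≤ w i ∧ w i ^ 2 + k ^ 2 * x i ^ 2 ≤ 1) :
    ∑ i ∈ Finset.range n, (x (i + 1) - x i) * (w i + w (i + 1)) / 2 ≤ mk k := by
  sorry

theorem mk_one : mk 1 = Real.pi / 4 := by
  sorry

/-- [SL1] SlabIneq.lean -/
theorem slab_ineq (x0 x1 : ℝ) (h1 : 0 ≤ x1) (h2 : x1 ≤ 1) (h3 : 1 ≤ x0) :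
    (x0 - 1) * (1 - x1) ≤ 4 / 9 * ∫ x in x1..x0, √((x0 ^ 2 - x ^ 2) * (x ^ 2 - x1 ^ 2)) := by
  sorry

/-- [SL2] Slab.lean -/
theorem slab_lemma (a q : ℝ → ℝ) (P V a0 a1 : ℝ) (h : Prof a q P V a0 a1) (hV0 : 0 < V)
    (hq : ∀ᵐ s ∂(volume.restrict (Ioo (0 : ℝ) 1)), √(Real.pi * a s) ≤ q s) :
    min ((9 * Real.pi / 2) ^ (1 / 3 : ℝ) * V ^ (2 / 3 : ℝ)) (√(Real.pi * V)) ≤ P := by
  sorry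

/-- [COR] Corner.lean -/
theorem corner (a q : ℝ → ℝ) (P V a0 a1 : ℝ) (h : Prof a q P V a0 a1) (hV0 : 0 < V)
    (hV : V ≤ 1 / 2) (ha0 : 999 / 1000 ≤ a0) (ha1 : a1 ≤ 1 / 1000)
    (hq : ∀ᵐ s ∂(volume.restrict (Ioo (0 : ℝ) 1)), q0 (a s) ≤ q s) : JQ V ≤ P := by
  sorry

/-- [N1a] in NumD1.lean: for `a0 ≤ 39/100` every slice is at least the disc bound -/
theorem hyp1_small (x : ℝ) (h0 : 0 ≤ x) (h1 : x ≤ 39 / 100) :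
    √(Real.pi * x) ≤ mk (73 / 100) + 73 / 100 * (x - 1 / 10) ∧
    √(Real.pi * x) ≤ √(Real.pi * (1 - x)) := by
  sorry

end P232
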