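import Vale.Agent.P232.DefsU

/-!
# P232, uniqueness of minimisers: blueprint (statements only; do not import)
-/

open MeasureTheory Set Filter Topology
open scoped ENNReal ContDiff

namespace P232

/-! ## A. Steiner symmetrisation -/

/-- [ST1] SymmDir.lean : one-directional version of symm_exists -/
theorem symm_dir (i : Fin 3) (f : Tor → ℝ) (K : NNReal) (hf : LipschitzWith K f)
    (h01 : ∀ x, f x ∈ Icc (0 : ℝ) 1) :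
    ∃ g : Tor → ℝ, LipschitzWith K g ∧ (∀ x, g x ∈ Icc (0 : ℝ) 1) ∧
      (∀ x y : Tor, (∀ j, j ≠ i → x j = y j) → ‖x i‖ ≤ ‖y i‖ → g y ≤ g x) ∧
      (∀ (x : Tor) (φ : ℝ → ℝ), Continuous φ →
        ∫ t : AddCircle (1 : ℝ), φ (g (Function.update x i t)) =
          ∫ t : AddCircle (1 : ℝ), φ (f (Function.update x i t))) ∧
      ∀ δ, en δ g ≤ en δ f := by
  sorry

/-- [ST2] PerLsc.lean -/
theorem per_of_approx (E : Set R3) (hm : MeasurableSet E) (hp : PeriodicSet E) (P : ℝ) (hP : 0 ≤ P)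
    (g : ℕ → Tor → ℝ) (hg : ∀ n, Continuous (g n)) (h01 : ∀ n x, g n x ∈ Icc (0 : ℝ) 1)
    (hen : ∀ n δ, 0 < δ → δ < 1 / 2 → en δ (g n) ≤ Mc δ * P)
    (hlim : Tendsto (fun n => ∫ x in cell, |g n (pr x) - E.indicator 1 x|) atTop (𝓝 0)) :
    perimeter E ≤ ENNReal.ofReal P := by
  sorry

/-- [ST3] Steiner.lean -/
theorem steiner (i : Fin 3) (E : Set R3) (hm : MeasurableSet E) (hp : PeriodicSet E)
    (hfin : perimeter E ≠ ⊤) :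
    MeasurableSet (St i E) ∧ PeriodicSet (St i E) ∧
      volume (St i E ∩ cell) = volume (E ∩ cell) ∧ perimeter (St i E) ≤ perimeter E := by
  sorry

/-- [ST4] SteinerMono.lean -/
theorem steiner_mono (E : Set R3) (x y : R3) (h : ∀ i, dz (x i) ≤ dz (y i))
    (hy : y ∈ St 2 (St 1 (St 0 E))) : x ∈ St 2 (St 1 (St 0 E)) := by
  sorry

/-- [OCT] Octant.lean -/
theorem octant (E : Set R3) (hm : MeasurableSet E) (hp : PeriodicSet E)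
    (hs : ∀ x y : R3, (∀ i, dz (x i) ≤ dz (y i)) → y ∈ E → x ∈ E) (hfin : perimeter E ≠ ⊤) :
    IsOpen (interior (oct E)) ∧ Low3 (interior (oct E)) ∧ interior (oct E) =ᵐ[volume] oct E ∧
      volume (interior (oct E)) = volume (E ∩ cell) ∧
      Approx3 (interior (oct E)) ((perimeter E).toReal / 2) := by
  sorry

/-- [OM] OctModel.lean -/
theorem oct_ball (E : Set R3) (hm : MeasurableSet E) (hp : PeriodicSet E)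
    (hs : ∀ x y : R3, (∀ i, dz (x i) ≤ dz (y i)) → y ∈ E → x ∈ E) (R : ℝ) (h0 : 0 < R) (h1 : R < 1)
    (h : oct E =ᵐ[volume] EB R) : E =ᵐ[volume] BallSet 0 (R / 2) := by
  sorry

theorem oct_tube (E : Set R3) (hm : MeasurableSet E) (hp : PeriodicSet E)
    (hs : ∀ x y : R3, (∀ i, dz (x i) ≤ dz (y i)) → y ∈ E → x ∈ E) (R : ℝ) (h0 : 0 < R) (h1 : R < 1)
    (h : oct E =ᵐ[volume] QT R ∨ oct E =ᵐ[volume] rot (QT R) ∨ oct E =ᵐ[volume] rot (rot (QT R))) :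
    ∃ k, E =ᵐ[volume] TubeSet k 0 (R / 2) := by
  sorry

theorem oct_slab (E : Set R3) (hm : MeasurableSet E) (hp : PeriodicSet E)
    (hs : ∀ x y : R3, (∀ i, dz (x i) ≤ dz (y i)) → y ∈ E → x ∈ E) (R : ℝ) (h0 : 0 < R) (h1 : R < 1)
    (h : oct E =ᵐ[volume] SB R ∨ oct E =ᵐ[volume] rot (SB R) ∨ oct E =ᵐ[volume] rot (rot (SB R))) :
    ∃ k, E =ᵐ[volume] SlabSet k 0 (R / 2) := by
  sorry

/-! ## B. Equality in the cube theorem -/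

/-- [LU] LbUb.lean -/
theorem lb_ub (S : Set (ℝ × ℝ)) (c p : ℝ) (hp : 0 ≤ p) (h1 : LB2 S c) (h2 : UB2 S p) : c ≤ p := by
  sorry

/-- [S3U] SliceU.lean : slice3 / prof_of with the additional information UB2 -/
theorem prof_of_u (D : Set (ℝ × ℝ × ℝ)) (ho : IsOpen D) (hD : Low3 D) (P : ℝ) (hP : 0 ≤ P)
    (hA : Approx3 D P) (V : ℝ) (hV0 : 0 ≤ V) (hV : volume D = ENNReal.ofReal V) :
    ∃ (a q : ℝ → ℝ) (a0 a1 : ℝ), Prof a q P V a0 a1 ∧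
      (∀ s ∈ Ioo (0 : ℝ) 1, a s = (volume (slice D s)).toReal) ∧
      (∀ t < a0, ∃ s ∈ Ioo (0 : ℝ) 1, t < a s) ∧
      (∀ᵐ s ∂(volume.restrict (Ioo (0 : ℝ) 1)), ∀ c, LB2 (slice D s) c → c ≤ q s) ∧
      (∀ᵐ s ∂(volume.restrict (Ioo (0 : ℝ) 1)), UB2 (slice D s) (q s)) := by
  sorry

/-- from UB2 to the planar partition inequality -/
theorem part_of_ub (S : Set (ℝ × ℝ)) (hSm : MeasurableSet S) (hS : Low2 S) (c : ℝ) (hc : 0 ≤ c)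
    (h : UB2 S c) : PartIneq (hgt S) (q1 (hgt S)) c := by
  sorry

/-- [WTE] WTrickEq.lean : equality case of wtrick (remainder in AM-GM) -/
theorem wtrick_eq (h : ℝ → ℝ) (hanti : AntitoneOn h (Ioo 0 1))
    (h01 : ∀ x ∈ Ioo (0 : ℝ) 1, 0 ≤ h x ∧ h x < 1) (hlim : Tendsto h (𝓝[<] 1) (𝓝 0))
    (ha : 0 < ∫ x in (0 : ℝ)..1, h x)
    (hP : PartIneq h (q1 h) (√(Real.pi * ∫ x in (0 : ℝ)..1, h x))) :
    ∀ᵐ x ∂(volume.restrict (Ioo (0 : ℝ) 1)),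
      h x = √(4 / Real.pi * (∫ x in (0 : ℝ)..1, h x) - x ^ 2) := by
  sorry

/-- [PLE] PlanarEq.lean -/
theorem planar_eq (S : Set (ℝ × ℝ)) (ho : IsOpen S) (hS : Low2 S) (hx : ¬ ConX S) (hy : ¬ ConY S)
    (ha : 0 < (volume S).toReal) (hU : UB2 S (√(Real.pi * (volume S).toReal))) :
    S =ᵐ[volume] {p | p ∈ Q2 ∧ p.1 ^ 2 + p.2 ^ 2 < 4 / Real.pi * (volume S).toReal} := by
  sorry

/-- [SIS] SlabStrict.lean -/
theorem slab_ineq_strict (x0 x1 : ℝ) (h1 : 0 ≤ x1) (h2 : x1 ≤ 1) (h3 : 1 ≤ x0)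
    (hne1 : ¬ (x1 = 0 ∧ x0 = 3 / 2)) (hne2 : ¬ (x1 = 1 ∧ x0 = 1)) :
    (x0 - 1) * (1 - x1) < 4 / 9 * ∫ x in x1..x0, √((x0 ^ 2 - x ^ 2) * (x ^ 2 - x1 ^ 2)) := by
  sorry

/-- [SLE] SlabEq.lean : equality case of slab_lemma -/
theorem slab_eq (a q : ℝ → ℝ) (P V a0 a1 : ℝ) (h : Prof a q P V a0 a1) (hV0 : 0 < V)
    (hq : ∀ᵐ s ∂(volume.restrict (Ioo (0 : ℝ) 1)), √(Real.pi * a s) ≤ q s)
    (hP : P ≤ min ((9 * Real.pi / 2) ^ (1 / 3 : ℝ) * V ^ (2 / 3 : ℝ)) (√(Real.pi * V))) :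
    (∀ᵐ s ∂(volume.restrict (Ioo (0 : ℝ) 1)), 0 < a s → q s = √(Real.pi * a s)) ∧
    ((∀ᵐ s ∂(volume.restrict (Ioo (0 : ℝ) 1)), a s = V) ∨
      ∃ R, 0 < R ∧ R < 1 ∧ ∀ᵐ s ∂(volume.restrict (Ioo (0 : ℝ) 1)),
        a s = Real.pi / 4 * max 0 (R ^ 2 - s ^ 2)) := by
  sorry

/-- [COS] CornerStrict.lean -/
theorem corner_strict (a q : ℝ → ℝ) (P V a0 a1 : ℝ) (h : Prof a q P V a0 a1) (hV0 : 0 < V)
    (hV : V ≤ 1 / 2) (ha0 : 999 / 1000 ≤ a0) (ha1 : a1 ≤ 1 / 1000) (hne : a0 < 1 ∨ 0 < a1)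
    (hq : ∀ᵐ s ∂(volume.restrict (Ioo (0 : ℝ) 1)), q0 (a s) ≤ q s) : JQ V < P := by
  sorry

/-- [FLAT] Flat.lean : `P = 1`, `a0 = 1`, `a1 = 0` forces a slab -/
theorem flat_eq (a q : ℝ → ℝ) (V : ℝ) (h : Prof a q 1 V 1 0)
    (hq : ∀ᵐ s ∂(volume.restrict (Ioo (0 : ℝ) 1)), q0 (a s) ≤ q s) :
    ∀ᵐ s ∂(volume.restrict (Ioo (0 : ℝ) 1)), a s = 1 ∨ a s = 0 := by
  sorry

/-- [NS] NumStrict.lean (helper28) -/
theorem num_gen_strict (a q : ℝ → ℝ) (P V a0 a1 : ℝ) (h : Prof a q P V a0 a1) (hV0 : 0 < V)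
    (hV : V ≤ 1 / 2) (ha0 : 19 / 20 ≤ a0)
    (hq : ∀ᵐ s ∂(volume.restrict (Ioo (0 : ℝ) 1)), q0 (a s) ≤ q s) :
    JQ V < P ∨ (a0 = 1 ∧ a1 = 0) := by
  sorry

theorem num_D1_strict (a q : ℝ → ℝ) (P V a0 a1 : ℝ) (h : Prof a q P V a0 a1) (hV0 : 0 < V)
    (hV : V ≤ 1 / 2) (ha0 : 39 / 100 ≤ a0)
    (hq : ∀ᵐ s ∂(volume.restrict (Ioo (0 : ℝ) 1)), Hyp1 a q s) : JQ V < P := by
  sorry

theorem num_D3_strict (a q : ℝ → ℝ) (P V a0 a1 : ℝ) (h : Prof a q P V a0 a1) (hV0 : 0 < V)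
    (hV : V ≤ 1 / 2) (ha0 : a0 ≤ 19 / 20) (η : ℝ) (hη0 : 0 ≤ η) (hη : η ≤ a0)
    (hq : ∀ᵐ s ∂(volume.restrict (Ioo (0 : ℝ) 1)), Hyp3 a q η s) : JQ V < P := by
  sorry

/-- [TYU] TypesEq.lean : equality in the cube theorem -/
theorem cube_eq (D : Set (ℝ × ℝ × ℝ)) (ho : IsOpen D) (hD : Low3 D) (V : ℝ) (hV0 : 0 < V)
    (hV1 : V ≤ 1 / 2) (hV : volume D = ENNReal.ofReal V) (hA : Approx3 D (JQ V)) :
    IsModelQ D := by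
  sorry

/-! ## C. Rigidity of Steiner symmetrisation -/

/-- [RC] Circle.lean -/
theorem circle_lower (G : ℕ → ℝ → ℝ) (hG : ∀ n, ContDiff ℝ 1 (G n)) (hper : ∀ n t, G n (t + 1) = G n t)
    (h01 : ∀ n t, G n t ∈ Icc (0 : ℝ) 1) (A : Set ℝ) (hA : MeasurableSet A)
    (hAp : ∀ t, t + 1 ∈ A ↔ t ∈ A) (l : ℝ) (hl0 : 0 < l) (hl1 : l < 1)
    (hvol : volume (A ∩ Ico 0 1) = ENNReal.ofReal l)
    (hlim : ∀ᵐ t : ℝ, Tendsto (fun n => G n t) atTop (𝓝 (A.indicator 1 t))) :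
    ENNReal.ofReal 2 ≤ liminf (fun n => ∫⁻ t in Ico (0 : ℝ) 1, ENNReal.ofReal |deriv (G n) t|) atTop := by
  sorry

theorem circle_arc (G : ℕ → ℝ → ℝ) (hG : ∀ n, ContDiff ℝ 1 (G n)) (hper : ∀ n t, G n (t + 1) = G n t)
    (h01 : ∀ n t, G n t ∈ Icc (0 : ℝ) 1) (A : Set ℝ) (hA : MeasurableSet A)
    (hAp : ∀ t, t + 1 ∈ A ↔ t ∈ A) (l : ℝ) (hl0 : 0 < l) (hl1 : l < 1)
    (hvol : volume (A ∩ Ico 0 1) = ENNReal.ofReal l)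
    (hlim : ∀ᵐ t : ℝ, Tendsto (fun n => G n t) atTop (𝓝 (A.indicator 1 t)))
    (hN : Tendsto (fun n => ∫ t in (0 : ℝ)..1, |deriv (G n) t|) atTop (𝓝 2)) :
    ∃ c : ℝ, A =ᵐ[volume] {t | dz (t - c) < l / 2} ∧
      ∀ η : ℝ → ℝ, Continuous η → (∀ t, η (t + 1) = η t) →
        Tendsto (fun n => ∫ t in (0 : ℝ)..1, |deriv (G n) t| * η t) atTop
          (𝓝 (η (c - l / 2) + η (c + l / 2))) := by
  sorry

/-- [RW] WeakConst.lean -/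
theorem weak_const (Ω : Set (Fin 2 → ℝ)) (ho : IsOpen Ω) (hc : Convex ℝ Ω) (w : (Fin 2 → ℝ) → ℝ)
    (hw : Measurable w) (hb : ∀ y, |w y| ≤ 1)
    (h : ∀ (j : Fin 2) (ψ : (Fin 2 → ℝ) → ℝ), ContDiff ℝ ∞ ψ → HasCompactSupport ψ → tsupport ψ ⊆ Ω →
      ∫ y in Ω, w y * fderiv ℝ ψ y (Pi.single j 1) = 0) :
    ∃ k : ℝ, ∀ᵐ y ∂(volume.restrict Ω), w y = k := by
  sorry

/-- [RD] Deficit.lean : the deficit of the gradient and the limit of the tangential derivatives.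
`N` is the weak limit statement: for test functions `ψ` supported in `Ω` and periodic smooth `η`. -/
theorem rigid_pde (i : Fin 3) (E : Set R3) (hm : MeasurableSet E) (hp : PeriodicSet E)
    (Ω : Set (Fin 2 → ℝ)) (hΩo : IsOpen Ω) (hΩ : Ω ⊆ {y | ∀ j, y j ∈ Ioo (0 : ℝ) 1})
    (l : (Fin 2 → ℝ) → ℝ) (hl : ContDiffOn ℝ ∞ l Ω) (h0 : ∀ y ∈ Ω, 0 < l y ∧ l y < 1)
    (hE : ∀ᵐ y ∂(volume.restrict Ω),
      volume {t ∈ Ico (0 : ℝ) 1 | (i.insertNth t y : R3) ∈ E} = ENNReal.ofReal (l y))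
    (hfin : perimeter E ≠ ⊤)
    (hP : perimeter E ≤ ∫⁻ y in Ω,
      ENNReal.ofReal (√(4 + ∑ j, (fderiv ℝ l y (Pi.single j 1)) ^ 2))) :
    ∃ c : (Fin 2 → ℝ) → ℝ, Measurable c ∧
      (∀ᵐ y ∂(volume.restrict Ω), ∀ᵐ t : ℝ, ((i.insertNth t y : R3) ∈ E ↔ dz (t - c y) < l y / 2)) ∧
      ∀ (j : Fin 2) (ψ : (Fin 2 → ℝ) → ℝ), ContDiff ℝ ∞ ψ → HasCompactSupport ψ → tsupport ψ ⊆ Ω →
        (∫ y in Ω, Real.cos (2 * Real.pi * c y) * fderiv ℝ ψ y (Pi.single j 1) = 0) ∧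
        (∫ y in Ω, Real.sin (2 * Real.pi * c y) * fderiv ℝ ψ y (Pi.single j 1) = 0) := by
  sorry

/-- [RA] Rigid.lean (from rigid_pde and weak_const) -/
theorem rigid (i : Fin 3) (E : Set R3) (hm : MeasurableSet E) (hp : PeriodicSet E)
    (Ω : Set (Fin 2 → ℝ)) (hΩo : IsOpen Ω) (hΩc : Convex ℝ Ω)
    (hΩ : Ω ⊆ {y | ∀ j, y j ∈ Ioo (0 : ℝ) 1})
    (l : (Fin 2 → ℝ) → ℝ) (hl : ContDiffOn ℝ ∞ l Ω) (h0 : ∀ y ∈ Ω, 0 < l y ∧ l y < 1)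
    (hE : ∀ᵐ y ∂(volume.restrict Ω),
      volume {t ∈ Ico (0 : ℝ) 1 | (i.insertNth t y : R3) ∈ E} = ENNReal.ofReal (l y))
    (hfin : perimeter E ≠ ⊤)
    (hP : perimeter E ≤ ∫⁻ y in Ω,
      ENNReal.ofReal (√(4 + ∑ j, (fderiv ℝ l y (Pi.single j 1)) ^ 2))) :
    ∃ c : ℝ, ∀ᵐ y ∂(volume.restrict Ω), ∀ᵐ t : ℝ,
      ((i.insertNth t y : R3) ∈ E ↔ dz (t - c) < l y / 2) := by
  sorry

/-- [RM] RigidBall.lean, RigidTube.lean, RigidSlab.lean -/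
theorem rigid_ball (i : Fin 3) (E : Set R3) (hm : MeasurableSet E) (hp : PeriodicSet E) (c : R3)
    (r : ℝ) (h0 : 0 < r) (h1 : r < 1 / 2) (h : St i E =ᵐ[volume] BallSet c r)
    (hP : perimeter E ≤ ENNReal.ofReal (4 * Real.pi * r ^ 2)) :
    ∃ c', E =ᵐ[volume] BallSet c' r := by
  sorry

theorem rigid_tube (i k : Fin 3) (E : Set R3) (hm : MeasurableSet E) (hp : PeriodicSet E) (c : R3)
    (r : ℝ) (h0 : 0 < r) (h1 : r < 1 / 2) (h : St i E =ᵐ[volume] TubeSet k c r)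
    (hP : perimeter E ≤ ENNReal.ofReal (2 * Real.pi * r)) :
    ∃ c', E =ᵐ[volume] TubeSet k c' r := by
  sorry

theorem rigid_slab (i k : Fin 3) (E : Set R3) (hm : MeasurableSet E) (hp : PeriodicSet E) (c w : ℝ)
    (h0 : 0 < w) (h1 : w < 1 / 2) (h : St i E =ᵐ[volume] SlabSet k c w)
    (hP : perimeter E ≤ 2) : ∃ c', E =ᵐ[volume] SlabSet k c' w := by
  sorry

/-! ## D. Final -/

/-- [FU] Uniq.lean -/
theorem uniq (V : ℝ) (h0 : 0 < V) (h1 : V < 1) (E : Set R3) (hm : MeasurableSet E)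
    (hp : PeriodicSet E) (hvol : volume (E ∩ cell) = ENNReal.ofReal V)
    (hper : perimeter E = ENNReal.ofReal (J V)) :
    ∃ M, IsModel M ∧ (E =ᵐ[volume] M ∨ (Eᶜ : Set R3) =ᵐ[volume] M) := by
  sorry

end P232
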